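import Vale.Agent.P014U.Base
import Vale.Agent.P014T.Pl.Lwx

/-! # P014U: the `L`-value twisted by a discrete logarithm and the theta element -/

set_option linter.all false

open Complex UpperHalfPlane Filter Topology Set MeasureTheory
open scoped Real MatrixGroups ComplexConjugate

noncomputable section

namespace Vale.Agent.P014U.Pl

open P014T P014T.An P014T.Rk P004N P004Z P014T.Pl.Lw

export Vale.Agent.P014T.Pl (ES vals)

variable [Pp] {N l n D : ℕ} {G : ℍ → ℂ} {a a' : ℕ → ℤ} {S : Finset ℕ} {w : ℕ → ℂ} {w₀ : ℝ}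

/-- **the twisted value is congruent to the theta element** -/
theorem lwx (h : RN N G a) (h0 : Lw a 1 = 0) (w0 : w₀ ≠ 0)
    (hD : ∀ r : ℚ, ∃ k : ℤ, D * (Lw a fun n => ee (n * r)).re = k * w₀) (hS : ∀ p ∈ S, p.Prime)
    (ha : ∀ n : ℕ, n.Coprime (∏ p ∈ S, p) → a' n = a n) (hl : l.Prime) (lS : l ∉ S)
    {W : ZMod l → ZMod (pp ^ n)} (mul : ∀ b c, b ≠ 0 → c ≠ 0 → W (b * c) = W b + W c)
    (W1 : W (-1) = 0) (WS : ∀ p ∈ S, W p = 0) {F : Type*} [Field F] [IsAlgClosed F] (j : F →+* ℂ)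
    {x : F} (hx : j x * w₀ = Lw a' (cp (∏ p ∈ insert l S, p) fun k => (W k).val)) :
    ∃ (t : ℤ) (y : F), IsIntegral ℤ y ∧ (t * w₀ : ℂ) = D * (2 * π * ∑ k ∈ Finset.range l,
      (W k).val * ∫ y in Ioi (0 : ℝ), G (ofComplex ((k / l : ℝ) + Complex.I * y))) ∧
      D * l * x = ES N a S * (t + pp ^ n * y) := by
  have := Fact.mk hl
  have : CharZero F := j.charZero
  obtain ⟨v, hv⟩ : ∃ v : ZMod l → ℤ, ∀ b, v b = if b = 0 then 0 else ((W b).val : ℤ) := ⟨_, fun _ => rfl⟩
  have inv : ∀ c, c ≠ 0 → W c = 0 → ∀ b, v (c * b) = v b := fun c c0 e b => by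
    rw [hv, hv]
    by_cases f : b = 0
    · simp [f]
    · rw [if_neg f, if_neg (mul_ne_zero c0 f), mul c b c0 f, e, zero_add]
  have ev : ∀ b, v (-b) = v b := fun b => by rw [← neg_one_mul, inv _ (by simp) W1]
  choose k hk using fun i : ZMod l => hD (i.val / l)
  simp only [Rat.cast_div, Rat.cast_natCast] at hk
  replace hk : ∀ i, (D * (Lj a l i).re : ℂ) = k i * w₀ := fun i => by exact_mod_cast hk i
  have w0' : (w₀ : ℂ) ≠ 0 := ofReal_ne_zero.2 w0
  have l0 : (l : ℂ) ≠ 0 := Nat.cast_ne_zero.2 hl.ne_zero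
  have k0 : k 0 = 0 := by simpa [Lj_zero, h0, w0] using (hk 0).symm
  have ks : ∑ i, k i = 0 := by
    have := even_re a (v := fun _ : ZMod l => D) fun _ => rfl
    rw [← Finset.mul_sum, sum_Lj h hl h0, mul_zero] at this
    simp only [hk, ← Finset.sum_mul] at this
    exact_mod_cast (mul_eq_zero.1 this.symm).resolve_right w0'
  obtain ⟨ζ, hζ⟩ := ex_root j l
  have pz : IsPrimitiveRoot ζ l :=
    (hζ ▸ isPrimitiveRoot_exp l hl.ne_zero).of_map_of_injective j.injective
  obtain ⟨y, iy, hy⟩ := cong (q := pp ^ n) hl (pz.isIntegral hl.pos) pz.pow_eq_one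
    (j.injective (by
      have := AddChar.sum_mulShift (1 : ZMod l) (ZMod.isPrimitive_stdAddChar l)
      simpa [hζ, chr] using this)) (v := v) (by simp [hv]) (fun b c b0 c0 => by
      rw [show (pp : ℤ) ^ n = (pp ^ n : ℕ) by simp, ← ZMod.intCast_zmod_eq_zero_iff_dvd]
      simp [hv, b0, c0, mul b c b0 c0]) k0 ks
  refine ⟨∑ i, v i * k i, y, iy, ?_, j.injective (mul_right_cancel₀ w0' ?_)⟩
  · have := even_re a (v := fun i => D * v i) fun i => by rw [ev]
    simp only [mul_right_comm (D : ℂ) _ ((_ : ℝ) : ℂ), hk] at this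
    rw [Int.cast_sum, Finset.sum_mul, Finset.sum_congr rfl (g := fun i => (k i * w₀ * v i : ℂ))
      fun i _ => by push_cast; ring, ← this, Finset.mul_sum, Finset.mul_sum, sum_z]
    refine Finset.sum_congr rfl fun i _ => ?_
    rw [mul_left_comm (2 * π : ℂ), ← ms h, ZMod.natCast_zmod_val, hv]
    split_ifs with e
    · simp only [e, Lj_zero, h0, ZMod.val_zero, Nat.cast_zero, zero_div, ofReal_zero, mul_zero, ee,
        exp_zero]
      rw [show Lw a (fun _ => 1) = 0 from h0]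
      simp
    · simp only [Lj, ofReal_div, ofReal_natCast, Int.cast_natCast]
      ring
  · have e : Lw a' (cp (∏ p ∈ insert l S, p) fun k => (W k).val) =
        M0 (cp (∏ p ∈ S, p) fun n => (v n : ℂ) * a n) := by
      rw [Lw_eq]
      refine congrArg M0 (funext fun m => ?_)
      simp only [cp, Finset.prod_insert lS, Nat.coprime_mul_iff_right, cop hl, hv]
      by_cases c : m.Coprime (∏ p ∈ S, p)
      · by_cases d : (m : ZMod l) = 0 <;> simp [c, d, ha m c]
      · simp [c]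
    have f := (dep h (pw_mod hl.ne_zero fun b => (v b : ℂ)) hS fun p m b => by
      rw [Nat.cast_mul, inv _ ((cop hl p).1 ((Nat.coprime_primes (hS p m) hl).2
        fun e => lS (e ▸ m))) (WS p m)]).2.1
    have g := even_re a (v := fun i => D * ZMod.dft (fun b => (v b : ℂ)) i) fun i => by
      rw [← congrFun (ZMod.dft_comp_neg fun b => (v b : ℂ)) i]
      simp only [ev]
    simp only [mul_right_comm (D : ℂ) _ ((_ : ℝ) : ℂ), hk] at g
    rw [← Lw_eq, Lw_hat h fun b => (v b : ℂ)] at f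
    have y' := congrArg j hy
    simp only [map_sum, map_mul, hat, map_pow, hζ, map_intCast, map_add] at y'
    simp only [← hat_eq, hat] at f g
    rw [map_mul, map_mul, map_mul, map_add, map_mul, map_pow, mul_assoc, hx, e, f]
    simp only [map_natCast, map_ratCast, map_intCast, map_ofNat]
    rw [Int.cast_pow, Int.cast_natCast] at y'
    simp only [mul_assoc (D : ℂ), mul_comm _ (w₀ : ℂ), mul_assoc (w₀ : ℂ), ← Finset.mul_sum,
      mul_comm (k _ : ℂ)] at g
    simp only [mul_assoc (l : ℂ)⁻¹, ← Finset.mul_sum (a := (l : ℂ)⁻¹)]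
    rw [← y', mul_assoc (ES N a S : ℂ), mul_comm _ (w₀ : ℂ), ← g]
    field_simp

theorem nrm_le {F : Type*} [CommRing F] (ι : F →+* ℂ_[pp]) {y : F} (h : IsIntegral ℤ y) :
    ‖ι y‖ ≤ 1 := by
  obtain ⟨p, m, e⟩ := map_isIntegral_int ι h
  exact (Valuation.integer.integers (NormedField.valuation (K := ℂ_[pp]))).mem_of_integral
    (x := ι y) ⟨p.map (Int.castRingHom _), m.map _, by
      rw [Polynomial.eval₂_map, ← e]
      exact congrArg (fun f => Polynomial.eval₂ f (ι y) p) (RingHom.ext_int _ _)⟩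

/-- the congruence in norms -/
theorem lwx_nrm {F : Type*} [Field F] (ι : F →+* ℂ_[pp]) {x y : F} {t : ℤ} {e : ℚ} (D0 : D ≠ 0)
    (hl : pp.Coprime l) (iy : IsIntegral ℤ y) (k : D * l * x = e * (t + pp ^ n * y)) :
    ‖ι x - (e * t / (D * l) : ℚ)‖ * pp ^ n ≤ ‖((e / D : ℚ) : ℂ_[pp])‖ := by
  have : CharZero F := ι.charZero
  have nl : ‖(l : ℂ_[pp])‖ = 1 := by
    rw [← map_natCast (algebraMap ℚ_[pp] ℂ_[pp]), norm_algebraMap', Padic.norm_natCast_eq_one_iff]
    exact hl
  have n2 : ‖(pp : ℂ_[pp])‖ = (pp : ℝ)⁻¹ := by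
    rw [← map_natCast (algebraMap ℚ_[pp] ℂ_[pp]), norm_algebraMap', Padic.norm_p]
  have l0 : (l : ℂ_[pp]) ≠ 0 := norm_pos_iff.1 (nl ▸ one_pos)
  have d0 : (D : ℂ_[pp]) ≠ 0 := Nat.cast_ne_zero.2 D0
  have := congrArg ι k
  simp only [map_mul, map_add, map_pow, map_natCast, map_intCast, map_ratCast, map_ofNat] at this
  rw [show ι x - (e * t / (D * l) : ℚ) = (e / D : ℚ) * pp ^ n * ι y / l by
    push_cast; field_simp; linear_combination this, norm_div, nl, div_one, norm_mul, norm_mul,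
    norm_pow, n2, mul_right_comm, mul_assoc ‖_‖, ← mul_pow, inv_mul_cancel₀ (Nat.cast_ne_zero.2 pp_ne), one_pow,
    mul_one]
  exact mul_le_of_le_one_right (norm_nonneg _) (nrm_le ι iy)

end Vale.Agent.P014U.Pl
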