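import Vale.Agent.P014U.Pl.Row
import Vale.Agent.P014U.Tp.Bv

/-! # P014U, block PRL: from the link to the formula in rank one -/

set_option autoImplicit false
set_option linter.all false

open NumberField
open scoped Classical

noncomputable section

namespace Vale.Agent.P014U.Pl

open Top
open Vale.Agent.P014 (torsionOrder)
open X4S.Ga (K)
open P027M.K (TM)
open Bt (dd)
open Lc (Wq)
open P014T (IsBasisModTorsion)
open P014T.Sm (up)

variable [Pp]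

theorem nrm (x : ℤ) (s r l : K) {n i : ℕ} (h : i ≤ n) :
    ‖((x * pp ^ (n - i) : ℤ) : K) * s * r * l‖ * (pp : ℝ) ^ n =
      ‖(x : K)‖ * ‖s * r * l‖ * (pp : ℝ) ^ i := by
  obtain ⟨d, rfl⟩ := Nat.exists_eq_add_of_le h
  have := pp_pos
  push_cast
  simp only [norm_mul, Nat.add_sub_cancel_left, Ba.norm_two_pow, pow_add]
  field_simp

/-- **rank one** -/
theorem bv1 (M : MODN) (H : PRL) : BV 1 := fun A B h ar => by
  have q0 := pp_pos
  have q1 : (1 : ℝ) < pp := Nat.one_lt_cast.2 one_lt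
  have hΔ := sI_ne h
  have := Lc.ell hΔ
  have md := md_sI A B
  obtain ⟨S₁, Y, v, p1, nt, pl, H⟩ := H A B h ar
  obtain ⟨S₂, p2, ls⟩ := ls M h ar
  refine ⟨S₁ ∪ S₂, fun p m => (Finset.mem_union.1 m).elim (p1 p) (p2 p),
    fun S α sub pm ⟨c, P, ι, lg, σ, ρ₀, m, hc, o2, hι, k, σ0, e0, hz⟩ => ?_⟩
  obtain ⟨s1, s2⟩ := Finset.union_subset_iff.1 sub
  obtain ⟨lb, L, hL, oL, vL⟩ := ls S s2 pm
  obtain ⟨ρ, eρ, H⟩ := H S L s1 pm hL
  obtain ⟨l0, l1⟩ := (P014T.An.ord_le (hL.1 1 P014T.An.m1)).2.1.1 oL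
  have ρ0 : ρ ≠ 0 := fun e => l1 (by rw [eρ, e]; simp)
  have w : (w0 A B : ℂ) ≠ 0 := fun e => l1 (by rw [eρ]; push_cast; rw [e]; simp)
  obtain rfl : ρ₀ = 0 := by
    rw [← vL, l0] at e0
    exact_mod_cast (mul_eq_zero.1 e0.symm).resolve_right w
  obtain ⟨P, rfl, oP⟩ := ex_P o2
  obtain ⟨c₀, H⟩ := H c _ ι lg σ α m o2 hι k
  obtain ⟨g, G⟩ := Bt.ex_gp h hc
  obtain ⟨y, hy⟩ := P014T.Sm.ex_up md fun g => Y.2 g trivial
  have ny : ¬ IsOfFinAddOrder y := fun e => nt (hy ▸ (up md).isOfFinAddOrder e)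
  obtain ⟨j₀, T⟩ := Bt.top1 hΔ md hι k hc G ⟨y, ny⟩
  have kr := fun x => (k.ker hΔ md hι x).trans
    (Subtype.val_injective.isOfFinAddOrder_iff (f := (P014T.Wm.Fx A B _).subtype)).symm
  obtain ⟨β, hβ⟩ : ∃ β, β = ‖(σ : K) * ρ * lg (lc (P pp) Y)‖ := ⟨_, rfl⟩
  have β0 : 0 < β := hβ ▸ norm_pos_iff.2 (mul_ne_zero (mul_ne_zero
    (PadicInt.coe_ne_zero.2 σ0) (Rat.cast_ne_zero.2 ρ0)) fun e => nt ((kr _).1 e))
  have big : ∀ (x t : ℝ), 0 < t → ∃ e : ℕ, ∀ j u, e ≤ j → 1 ≤ u * (pp : ℝ) ^ (m * m) →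
      x < u * t * (pp : ℝ) ^ j := fun x t t0 => by
    obtain ⟨e, he⟩ := pow_unbounded_of_one_lt (|x| * (pp : ℝ) ^ (m * m) / t) q1
    refine ⟨e, fun j u a b => (le_abs_self x).trans_lt (lt_of_mul_lt_mul_right ?_
      (pow_pos (one_pos.trans q1) (m * m)).le)⟩
    rw [div_lt_iff₀ t0] at he
    calc _ < 1 * ((pp : ℝ) ^ j * t) := by
          rw [one_mul]
          exact he.trans_le (by gcongr; exact q1.le)
      _ ≤ u * (pp : ℝ) ^ (m * m) * ((pp : ℝ) ^ j * t) := by gcongr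
      _ = _ := by ring
  obtain ⟨e₀, h0⟩ := big (pp ^ c₀) β β0
  obtain ⟨τ, hτ⟩ : ∃ τ, τ = padicValNat pp (torsionOrder (Wq (sI A B))) := ⟨_, rfl⟩
  have key : ∀ j, e₀ + τ + m < j → ∃ n z C, n = j + (e₀ + τ) + m ∧
      Zt h S c (P pp) ι lg σ α 0 m n z ∧ 1 ≤ ‖((∏ q ∈ C, nq A B q : ℤ) : K)‖ * (pp : ℝ) ^ (m * m) ∧
      (∀ q ∈ C, q.Prime ∧ q ∉ S) ∧ cz A B (S ∪ C) c n ≤ (pp ^ 2) ^ n * pp ^ (e₀ + τ + m) ∧
      (sg g n j ((∏ q ∈ C, nq A B q) • z) * cz A B (S ∪ C) c j : ℝ) =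
        ((pp : ℝ) ^ 4) ^ j * ‖(σ : ℚ_[pp]) * α‖ :=
    fun j hj => by
    obtain ⟨n, hn⟩ : ∃ n, n = j + (e₀ + τ) + m := ⟨_, rfl⟩
    obtain ⟨z, Z⟩ := hz n
    obtain ⟨C, c1, c2, c3⟩ := Z.mc
    have lo := nq_low c1 fun q a => (c2 q a).2.2
    refine ⟨n, z, C, hn, Z, lo, fun q a => ⟨(c2 q a).1, (c2 q a).2.1⟩, c3 g G _ j hj hn.ge ?_⟩
    have s := sg_low h G (j := j) (i := j - e₀) (x := pp ^ (n - j) • (∏ q ∈ C, nq A B q) • z) (by
      rw [smul_smul, ← pow_add, show j + (n - j) = n by omega, smul_comm, Z.tor, zsmul_zero])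
      fun ⟨s, e⟩ => by
        have b := h0 e₀ _ le_rfl lo
        rw [hβ, ← nrm _ _ _ _ (show e₀ ≤ n by omega)] at b
        have := H n z Z _ 0 (s • TM.cp j g) (by
          rw [map_zsmul, show s • dd A B (TM.cp j g) = _ from e, smul_smul, ← pow_add, mul_comm,
            mul_smul, show j - e₀ + (n - j) = n - e₀ by omega, ← natCast_zsmul]
          push_cast
          rfl) (by
          rw [zero_zsmul, sub_zero, smul_comm, Ba.pow_up (by omega) (TM.pow_smul_cp g j), zsmul_zero]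
          exact IsOfFinAddOrder.zero) b
        rw [← this, Int.cast_zero, norm_zero, zero_mul] at b
        exact b.not_ge (by positivity)
    rw [← hτ] at s
    calc _ = pp ^ e₀ * pp ^ (j + (j - e₀)) := by
          rw [← pow_add, show e₀ + (j + (j - e₀)) = 2 * j by omega, pow_mul]
      _ ≤ pp ^ e₀ * pp ^ (j + (j - e₀) + 1) :=
          Nat.mul_le_mul_left _ (Nat.pow_le_pow_right q0 (Nat.le_succ _))
      _ ≤ _ := by rw [pow_add pp e₀, mul_assoc]; exact Nat.mul_le_mul_left _ s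
  have T' := fun (C : Finset ℕ) (a : ∀ q ∈ C, q.Prime ∧ q ∉ S) =>
    have b : Pm (S ∪ C) := fun p m => (Finset.mem_union.1 m).elim (pm p) fun m => (a p m).1
    T (S ∪ C) (ls _ (s2.trans Finset.subset_union_left) b).1 fun p m => oP p (b p m)
  obtain ⟨n, z, C, hn, -, -, cp, cb, -⟩ := key _ (Nat.lt_succ_self _)
  obtain ⟨rk, fn, -⟩ := T' C cp _ _ cb (by omega)
  obtain ⟨e, he⟩ : ∃ e : Fin 1 → _, IsBasisModTorsion (Wq (sI A B)) e := rk ▸ P014T.Cn.ex_basis _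
  obtain ⟨f, hf⟩ := (P014T.Cn.basis_one.1 he).2 y
  have f0 : (f : K) ≠ 0 := Int.cast_ne_zero.2 fun a => ny (by simpa [a] using hf)
  obtain ⟨e₁, h1⟩ := big (pp ^ c₀ + pp ^ j₀) (‖(f : K)‖ * β) (mul_pos (norm_pos_iff.2 f0) β0)
  obtain ⟨j, hj⟩ : ∃ j, j = e₀ + τ + m + 1 + e₁ := ⟨_, rfl⟩
  obtain ⟨n, z, C, hn, Z, lo, cp, cb, fm⟩ := key j (by omega)
  obtain ⟨Q, x, q1, q2, q3⟩ := (T' C cp _ _ cb (by omega)).2.2 e he j
    ⟨(∏ q ∈ C, nq A B q) • z, zsmul_mem (z0_up Finset.subset_union_left Z.mem) _⟩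
    (Subtype.ext (show pp ^ n • (∏ q ∈ C, nq A B q) • z = 0 by rw [smul_comm, Z.tor, zsmul_zero]))
    (by omega) (by omega)
  have t := (up md).isOfFinAddOrder hf
  rw [map_sub, map_zsmul, hy] at t
  have b := h1 j _ (by omega) lo
  have jn : j ≤ n := by omega
  have p2 : (0 : ℝ) < pp ^ c₀ := by positivity
  have p3 : (0 : ℝ) < pp ^ j₀ := by positivity
  have r := H n z Z (f * (∏ q ∈ C, nq A B q) * pp ^ (n - j)) (x * pp ^ (n - j)) (f • Q) (by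
    rw [map_zsmul, ← q1, mul_assoc, mul_smul, mul_comm, mul_smul, ← natCast_zsmul]
    push_cast
    rfl) (by
    rw [show pp ^ n • f • Q - (x * pp ^ (n - j)) • Y.1 = pp ^ (n - j) • (f • (pp ^ j • Q -
      x • up md (e 0)) + -x • (Y.1 - f • up md (e 0))) by
        obtain ⟨d, rfl⟩ := Nat.exists_eq_add_of_le jn
        rw [Nat.add_sub_cancel_left, pow_add, mul_smul]
        module]
    exact (q2.zsmul.add t.zsmul).nsmul) (by
    rw [nrm _ _ _ _ jn, ← hβ, Int.cast_mul, norm_mul]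
    linarith)
  have r' := congrArg (· * (pp : ℝ) ^ n) r
  have x1 := nrm x 1 1 1 jn
  simp only [mul_one, norm_one] at x1
  rw [nrm _ _ _ _ jn, x1, ← hβ, mul_left_inj' (by positivity), Int.cast_mul, norm_mul] at r'
  have F := q3 (by rw [r']; linarith)
  obtain ⟨y₀, hy₀⟩ : ∃ y₀ : P014T.Wm.Fx A B _, y₀ = ⟨up md (e 0), fun g _ => P014T.Sm.ga_up md g _⟩ := ⟨_, rfl⟩
  have lf : lg (lc (P pp) Y) = f * lg y₀ := by
    have := (kr (lc (P pp) Y - f • y₀)).2 (hy₀ ▸ t)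
    rwa [map_sub, map_zsmul, sub_eq_zero, zsmul_eq_mul] at this
  have y0 : ‖lg y₀‖ ≠ 0 := fun a => β0.ne' (by rw [hβ, lf]; simp only [norm_mul, a, mul_zero])
  rw [← hy₀, show ‖(x : K) / lg y₀‖ =
      ‖((∏ q ∈ C, nq A B q : ℤ) : K) * σ * (ρ * f ^ 2 : ℚ)‖ by
    rw [norm_div, r', hβ, lf, Rat.cast_mul, Rat.cast_pow, Rat.cast_intCast]
    simp only [norm_mul, norm_pow]
    field_simp] at F
  refine dis h lb cp hL oL he fn (mul_ne_zero ρ0 (pow_ne_zero 2 (by exact_mod_cast f0))) ?_ σ0 F fm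
  rw [iteratedDeriv_one, eρ, ← hy, ← P014T.Cn.can_eq pl md, P014T.Cn.can_reg hf]
  push_cast
  simp only [Nat.factorial_one, Nat.cast_one, div_one]
  ring

end Vale.Agent.P014U.Pl
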