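import Vale.Agent.P014U.Pl.St
import Vale.Agent.P014U.Pl.Lwx
import Vale.Agent.P014U.Nd.Tga
import Vale.Agent.P014T.Pl.Lwr

/-! # P014U, block PRL: the analytic rows -/

set_option autoImplicit false
set_option linter.all false

noncomputable section

namespace Vale.Agent.P014U.Pl

open P004N (RN ALw)
open P014T.Top (w0)
open P014T.Z (Hg L0 GZX)
open P014T.Pl.Lw

export Vale.Agent.P014T.Pl (hd)

variable [Pp]

theorem lwx_row : LWX := fun A B N G a h f v => by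
  obtain ⟨S₀, p, p2, k⟩ := ex_at h f
  obtain ⟨D, D0, hD⟩ := hd h f
  have w1 := (w0_pos h).ne'
  refine ⟨S₀, p, fun S s hS => ?_⟩
  obtain ⟨e, he⟩ := pow_unbounded_of_one_lt ‖((ES N a S / D : ℚ) : ℂ_[pp])‖
    (Nat.one_lt_cast.2 one_lt : (1 : ℝ) < pp)
  refine ⟨e, fun l n W hl lS hW WS => ?_⟩
  have d0 : (D : ℂ) ≠ 0 := Nat.cast_ne_zero.2 D0
  have w2 : (w0 A B : ℂ) ≠ 0 := Complex.ofReal_ne_zero.2 w1
  have key := fun (F : Type) [Field F] [IsAlgClosed F] (j : F →+* ℂ) x hx => lwx f.rn (van v) w1 hD hS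
    (fun n c => (k S s n c).1) hl lS hW.mul hW.neg WS j (x := x) hx
  obtain ⟨t, -, -, ht, -⟩ := key ℂ (RingHom.id ℂ) _ (div_mul_cancel₀ _ w2)
  refine ⟨ES N a S * t / D, ?_, fun j x ι hx => ?_⟩
  · push_cast
    rw [div_mul_eq_mul_div, mul_assoc, ht, mul_left_comm, mul_div_cancel_left₀ _ d0]
    rfl
  · obtain ⟨t', y, iy, ht', e'⟩ := key _ j x hx
    obtain rfl : t' = t := by exact_mod_cast mul_right_cancel₀ w2 (ht'.trans ht.symm)
    have := lwx_nrm (l := 1) ι (x := l * x) D0 (Nat.coprime_one_right _) iy (by simpa [mul_assoc] using e')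
    rw [map_sub, map_ratCast]
    simpa using this.trans he.le

/-- the first hypothesis is the text of `Nv.NVD` -/
theorem tga (nv : ∀ N G a, RN N G a → ALw N N G 1 → ∀ M T : ℕ, M ≠ 0 →
    ∃ d : ℕ, Hg N d 1 ∧ T ≤ d ∧ M ∣ d + 1 ∧ L0 a d ≠ 0) (gz : GZX) (tg : P014T.Tg.TGZ) : TGA :=
  fun _ _ N G a h f w v l =>
    let ⟨_, g, _, _, k⟩ := nv N G a f.rn w 1 0 one_ne_zero
    Nd.tga gz tg h f.rn f.fin w v g l k

end Vale.Agent.P014U.Pl
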