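import Vale.Agent.P014U.Pl.Prl
import Vale.Agent.P014U.Pl.Fin
import Vale.Agent.P014U.Pl.Lwr
import Vale.Agent.P014T.Nv.Nv
import Vale.Agent.P014T.Tg.All

/-! # P014U, block PRL: wiring -/

set_option autoImplicit false
set_option linter.all false

namespace Vale.Agent.P014U.Pl

open Top P014T

variable [Pp]

theorem prl_all (M : MODN) (V : Nv.NVD) : PRL :=
  prl M Nv.sgr P014T.Pl.der_row (tga V Z.gzx_all Tg.tgz_all) lwx_row

/-- **the row of rank one** -/
theorem bv1_all (M : MODN) (V : Nv.NVD) : BV 1 := bv1 M (prl_all M V)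

end Vale.Agent.P014U.Pl
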