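import Vale.Agent.P014U.Rb.Chi
import Vale.Agent.P014U.Dr.Unr

/-! # P014U, block PRL: the derivative of an Euler system at a tame prime -/

set_option autoImplicit false
set_option linter.all false

open scoped Classical

noncomputable section

namespace Vale.Agent.P014U.Pl

open NumberField Matrix TrivSqZeroExt
open Vale.Agent.P022 Vale.Agent.P022K
open Vale.Agent.P022K.G2 (In)
open Vale.Agent.P022D.W (dec exists_phi)
open Vale.Agent.P022E.GW (Ov)
open Vale.Agent.P004F (hq M2)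
open Vale.Agent.P004M.TE (Pt ga)
open Dr
open Rb hiding Co Ch

variable [Pp] {n l : ℕ} {lam : ZMod l → ZMod (pp ^ n)} {χ : GQ → ZMod (pp ^ n)}

/-- the dual numbers -/
abbrev Dn (n : ℕ) : Type := DualNumber (Zn n)

/-- the inclusion of the constants -/
def il (n : ℕ) : Zn n →+* Dn n := algebraMap (Zn n) (Dn n)

/-- the character `1 + χ ε` -/
def psi (X : Lx l n lam χ) : GQ →* Dn n where
  toFun g := 1 + inr (χ g)
  map_one' := by rw [X.hm (Hm l).one_mem, inr_zero, add_zero]
  map_mul' g h := by ext <;> simp [X.add, add_comm]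

theorem psi_apply (X : Lx l n lam χ) (g : GQ) : psi X g = 1 + inr (χ g) := rfl

theorem psi_cd (X : Lx l n lam χ) (M : ℕ) : Cd (M * l) (psi X) := fun g m => by
  rw [psi_apply, X.hm (Hm_le (dvd_mul_left l M) m), inr_zero, add_zero]

variable {ρ : GQ →* M2 (Zn n)} {S : Finset ℕ} {a : ℕ → ℤ} {Ad : ℕ → Prop} {z : Fm n} {M : ℕ}

/-- the bottom class -/
def bot (z : Fm n) (M : ℕ) : GQ → Fin 2 → Zn n := z M (Zn n) (RingHom.id _) 1

/-- the constant term -/
def cst (z : Fm n) (M : ℕ) (X : Lx l n lam χ) (g : GQ) (i : Fin 2) : Zn n :=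
  (z (M * l) (Dn n) (il n) (psi X) g i).fst

/-- the derivative -/
def der (z : Fm n) (M : ℕ) (X : Lx l n lam χ) (g : GQ) (i : Fin 2) : Zn n :=
  (z (M * l) (Dn n) (il n) (psi X) g i).snd

theorem du0 (G : Gr ρ S a Ad) (E : Eu ρ S a Ad z) (m : Ad M) (lS : l ∉ S) (lM : ¬ l ∣ M)
    (X : Lx l n lam χ) : IsLocallyConstant (der z M X) ∧
    (∀ g h, der z M X (g * h) = der z M X g + ρ g *ᵥ der z M X h +
      (χ g).val • ρ g *ᵥ cst z M X h) ∧ (∀ i ∈ In (insert l S : Finset ℕ), der z M X i = 0) ∧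
    ∀ g, (l : ℤ) • cst z M X g = (l + 1 - a l : ℤ) • bot z M g := by
  have ml := G.adl M l m X.pr lS lM
  have c := E.co (M * l) (Dn n) (il n) (psi X) ml (psi_cd X M)
  refine ⟨?_, fun g h => ?_, fun i ⟨p, hp, P, op, hi⟩ => ?_, fun g => ?_⟩
  · obtain ⟨U, -, h1, h2⟩ := P014T.Dr.Co.core (a := am ρ (il n) (psi X)) c
    exact P004S.lc_of_open h1 U.one_mem fun g w k => funext fun i => by
      rw [der, c.coc g trivial w trivial, h2 w k, mulVec_zero, add_zero, der]
  · funext i
    have := congrArg snd (congrFun (c.coc g trivial h trivial) i)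
    simp only [der, Pi.add_apply, Pi.smul_apply, this]
    have i1 : ∀ x, (il n x).fst = x := fun _ => rfl
    have i2 : ∀ x, (il n x).snd = 0 := fun _ => rfl
    simp [aa, psi_apply, mulVec, dotProduct, der, cst, i1, i2]
    ring
  · simp only [Finset.coe_insert, Set.mem_insert_iff, not_or, Finset.mem_coe] at hp
    funext j
    rw [der, unr n ρ S a Ad z G E _ _ _ _ ml (psi_cd X M)
      (fun g => ⟨2, by rw [psi_apply, add_sub_cancel_left, sq, inr_mul_inr]⟩) p P i op hp.2 hi
      (by rw [psi_apply, X.ur op hp.1 hi, inr_zero, add_zero])]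
    rfl
  · obtain ⟨L, o⟩ := GW.Pl.ex_ov X.pr
    obtain ⟨φ, f⟩ := exists_phi o.1 o.2.1 o.2.2
    have e1 := congrFun (E.odd M (Zn n) (RingHom.id _) 1 l L φ m (fun _ _ => rfl) o lS lM f) g
    have e2 := fun i => E.map (M * l) (Dn n) (Zn n) (fstHom (Zn n) (Zn n) (Zn n)).toRingHom (il n)
      (psi X) g i ml
    rw [show (fstHom (Zn n) (Zn n) (Zn n)).toRingHom.comp (il n) = RingHom.id _ from
        RingHom.ext_zmod _ _,
      show (fstHom (Zn n) (Zn n) (Zn n)).toRingHom.toMonoidHom.comp (psi X) = 1 from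
        MonoidHom.ext fun g => by simp [psi_apply]] at e2
    funext i
    have := congrFun e1 i
    simp only [Pi.smul_apply, smul_eq_mul, MonoidHom.one_apply, ← e2] at this
    simp only [Pi.smul_apply, zsmul_eq_mul, bot]
    push_cast
    exact this.trans (by ring)

variable {A B : ℤ}

theorem e_tor (e : (Fin 2 → Zn n) →+ Pt A B) (v : Fin 2 → Zn n) : pp ^ n • e v = 0 := by
  rw [← map_nsmul, show pp ^ n • v = 0 from funext fun i => by
    rw [Pi.smul_apply, nsmul_eq_mul, ZMod.natCast_self, zero_mul, Pi.zero_apply], map_zero]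

/-- the derivative, with values in the points -/
theorem du (G : Gr ρ S a Ad) (E : Eu ρ S a Ad z) (m : Ad M) (lS : l ∉ S) (lM : ¬ l ∣ M)
    (X : Lx l n lam χ) {e : (Fin 2 → Zn n) →+ Pt A B} (he : ∀ g v, e (ρ g *ᵥ v) = ga g (e v)) :
    (IsLocallyConstant (fun g => e (der z M X g)) ∧ (∀ g, pp ^ n • e (der z M X g) = 0) ∧
      (∀ g h, e (der z M X (g * h)) = e (der z M X g) + ga g (e (der z M X h)) +
        (χ g).val • ga g (e (cst z M X h))) ∧
      ∀ i ∈ In (insert l S : Finset ℕ), e (der z M X i) = 0) ∧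
    ∀ g, (l : ℤ) • e (cst z M X g) = (l + 1 - a l : ℤ) • e (bot z M g) := by
  obtain ⟨d1, d2, d3, d4⟩ := du0 G E m lS lM X
  exact ⟨⟨d1.comp e, fun g => e_tor e _, fun g h => by simp only [d2, map_add, map_nsmul, he],
    fun i hi => by rw [d3 i hi, map_zero]⟩, fun g => by rw [← map_zsmul, d4, map_zsmul]⟩

end Vale.Agent.P014U.Pl
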