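import Vale.Agent.P014U.Pl.Core
import Vale.Agent.P014U.Pl.Row
import Vale.Agent.P014T.Pl.Prl

/-! # P014U, block PRL: the link of Perrin-Riou -/

set_option autoImplicit false
set_option linter.all false

open NumberField Real
open scoped Classical

noncomputable section

namespace Vale.Agent.P014U.Pl

open Vale.Agent.P022 (Qb GQ)
open Vale.Agent.P022D.W (dec)
open X4S.Ga (K O mem_O)
open X4F.Rc (mq_eq hn)
open Vale.Agent.P004M.TE (Pt ga al)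
open P004Z.H (hh)
open Top Co
open P014T.Wm (Fx)
open Ah (am)
open P014T.Tg (Lw Ms)
open P014T.Z (L1)

variable [Pp] {A B : ℤ}

namespace Co

export Vale.Agent.P014T.Pl.Co (ws_mul w0_ne)

theorem tg_mul {ms : ℝ → ℂ} {X : Pt A B} {r : ℂ} (h : TG A B ms X r) (c : ℂ) :
    TG A B (fun x => c * ms x) X (c * r) := by
  obtain ⟨M, L, T, Γ, a1, a2, a3, a4, h⟩ := h
  exact ⟨M, L, T, Γ, a1, a2, a3, a4, fun l P φ n W b1 b2 b3 b4 b5 b6 =>
    (h l P φ n W b1 b2 b3 b4 b5 b6).imp fun z k => ⟨by rw [ws_mul]; linear_combination c * k.1, k.2⟩⟩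

theorem ex_pow (x : K) : ∃ f : ℕ, (pp : K) ^ f * x ∈ O := by
  obtain ⟨f, e⟩ := pow_unbounded_of_one_lt ‖x‖ r1
  refine ⟨f, ?_⟩
  rw [mem_O, norm_mul, ← nm2 f]
  exact mul_le_mul_of_nonneg_left e.le (norm_nonneg _)

/-- the law at one point -/
theorem rz {h : El A B} {S : Finset ℕ} {c P ι lg σ α} {m n e f : ℕ} {z} {ms : ℝ → ℂ}
    (Z : Zt h S c P ι lg σ α 0 m n z) (s2 : pp ∈ S) (Y : Fx A B ⊤)
    (hf : (pp : K) ^ f * (lg (lc P Y) * hn e) ∈ O)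
    (H : ∀ (l n : ℕ) (W : ZMod l → ZMod (pp ^ n)), l.Prime → l ∉ S → Lw l (pp ^ n) W →
      (∀ p ∈ S, W p = 0) → ∃ θ : ℚ, θ * (w0 A B : ℂ) = ws ms W ∧
        ∀ (j : Qb →+* ℂ) (x : Qb) (ι : Qb →+* ℂ_[pp]),
          j x * w0 A B = P014T.Rk.Lw (al A B) (cS (insert l S) fun k => (W k).val) →
          ‖ι (l * x - θ)‖ * (pp : ℝ) ^ n ≤ (pp : ℝ) ^ e) :
    RZ h P ms (w0 A B) S n z (pp ^ (m + f) • Y.1) (σ * ((pp : K) ^ (m + f) * lg (lc P Y))) := by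
  refine ⟨m, fun l W χ a1 a2 lx lw a3 => ?_⟩
  obtain ⟨z₁, t, j, x, μ, u, c1, ht, un, dz, ex, eμ, rc⟩ := Z.r1 rfl l W χ lx a2 a1 lw.neg a3
  obtain ⟨θ, e1, e2⟩ := H l n W lx.pr a2 lw a3
  have l1 : ‖(l : K)‖ = 1 := by
    simpa using nmo (u := l) (Nat.isCoprime_iff_coprime.2
      ((Nat.coprime_primes lx.pr pp_prime).2 fun k => a2 (k ▸ s2)))
  have l0 : (l : K) ≠ 0 := norm_pos_iff.1 (l1 ▸ one_pos)
  have u1 : ‖((u : ℤ_[pp]) : K)‖ = 1 := PadicInt.norm_units u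
  refine ⟨z₁, t, θ, (u : ℤ_[pp]) / l, c1, ht, un, dz, e1, by rw [norm_div, u1, l1, div_one],
    fun X' hX => (rc (pp ^ f • lc P Y) X' (by rw [hX, pow_add, mul_smul]; rfl)).trans (mq_eq.2 ?_)⟩
  have b : ‖l * μ - θ‖ * (pp : ℝ) ^ n ≤ pp ^ m * pp ^ e := by
    have k := e2 j x ι ex
    rw [← Ah.nrm_am, show am (l * μ - θ) = am l * (am μ - ι x) + ι (l * x - θ) by simp; ring]
    refine (mul_le_mul_of_nonneg_right (IsUltrametricDist.norm_add_le_max _ _)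
      (by positivity)).trans ?_
    rw [norm_mul, Ah.nrm_am, l1, one_mul, max_mul_of_nonneg _ _ (by positivity)]
    exact max_le (eμ.trans (le_mul_of_one_le_right (by positivity) (one_le_pow₀ r1.le)))
      (k.trans (le_mul_of_one_le_left (by positivity) (one_le_pow₀ r1.le)))
  have t0 : (pp : K) ≠ 0 := Nat.cast_ne_zero.2 pp_ne
  have e3 : ∀ k : ℕ, ‖((pp : K) ^ k)⁻¹‖ = pp ^ k := fun k => by
    rw [norm_inv, eq_inv_of_mul_eq_one_right (nm2 k)]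
  rw [mem_O, show _ - _ = (u : ℤ_[pp]) / l * σ * ((pp : K) ^ f * (lg (lc P Y) * hn e)) *
      ((l * μ - θ) * ((pp : K) ^ n)⁻¹ * (pp ^ m * pp ^ e)) by
    simp only [map_nsmul, nsmul_eq_mul, hn, pow_add]
    push_cast
    field_simp, norm_mul, norm_mul, norm_mul, norm_div, u1, l1, div_one, one_mul]
  refine mul_le_one₀ (mul_le_one₀ σ.2 (norm_nonneg _) hf) (norm_nonneg _) ?_
  rw [norm_mul, norm_mul, e3, ← pow_add]
  exact (mul_le_mul_of_nonneg_right b (norm_nonneg _)).trans_eq (by rw [← pow_add, mul_comm, nm2])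

end Co

/-- **the link of Perrin-Riou** -/
theorem prl (hM : MODN) (hs : SGN) (hd : DER) (ht : TGA) (hl : LWX) : PRL := by
  intro A B h ar
  obtain ⟨N, G, a, nf⟩ := hM A B h
  obtain ⟨s1, s2, s3⟩ := hs A B N G a h nf ar
  obtain ⟨v, X, pl, fX, nt, tg⟩ := ht A B N G a h nf s1 s2 s3
  obtain ⟨S₁, p1, hd⟩ := hd A B N G a h nf s2
  obtain ⟨S₂, p2, hl⟩ := hl A B N G a h nf s2
  let Y : Fx A B ⊤ := ⟨X, fun g _ => fX g⟩
  refine ⟨S₁ ∪ S₂ ∪ Cp.Sb A B, Y, v, fun p m => ?_, nt, pl, fun S L hS pS hL => ?_⟩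
  · simp only [Finset.mem_union] at m
    exact m.elim (·.elim (p1 p) (p2 p)) Nat.prime_of_mem_primeFactors
  simp only [Finset.union_subset_iff] at hS
  obtain ⟨e, he⟩ := hl S hS.1.2 pS
  replace tg := tg_mul tg (eu N a S * 2 * π)
  simp only [← mul_assoc (eu N a S : ℂ), ← ws_mul] at he
  obtain ⟨ρ, hρ⟩ := rat h Y nt tg pS fun l n W b1 b2 b3 b4 => (he l n W b1 b2 b3 b4).imp fun _ k => k.1
  have h0 : (hh v X : ℂ) ≠ 0 := by exact_mod_cast mt (P014T.Cn.hh_zero pl (P014T.Wm.hD_Qb h)).1 nt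
  refine ⟨ρ / 2, ?_, fun c P ι lg σ α m o2 _ _ => ?_⟩
  · rw [hd S L hS.1.1 pS hL]
    field_simp at hρ
    push_cast
    linear_combination hρ
  obtain ⟨f, hf⟩ := ex_pow (lg (lc P Y) * hn e)
  obtain ⟨C, hC⟩ := core h o2 Y nt tg (w0_ne h) hρ pS hS.2 (N := pp ^ (m + f))
    (pow_ne_zero _ pp_ne) (σ * ((pp : K) ^ (m + f) * lg (lc P Y)))
  obtain ⟨c₀, hc⟩ := pow_unbounded_of_one_lt (C * pp ^ (m + f)) r1
  refine ⟨c₀, fun n z Z i k Q hQ tor lt => ?_⟩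
  have e1 : ‖(i * (σ * (pp ^ (m + f) * lg (lc P Y))) * ρ : K)‖ =
      ‖(pp : K) ^ (m + f)‖ * ‖(i * σ * (ρ / 2 : ℚ) * lg (lc P Y) : K)‖ := by
    rw [show (i * (σ * (pp ^ (m + f) * lg (lc P Y))) * ρ : K) =
      2 * (pp ^ (m + f) * (i * σ * (ρ / 2 : ℚ) * lg (lc P Y))) by push_cast; ring, norm_mul, norm_two,
      one_mul, norm_mul]
  have e2 := nm2 (m + f)
  have := hC n z (rz Z (hS.2 (two_mem h)) Y hf he) Z.tor i k Q hQ tor (by
    rw [e1]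
    refine lt_of_mul_lt_mul_right ((hc.trans lt).trans_eq ?_) (pow_pos r0 (m + f)).le
    linear_combination (-‖(i * σ * (ρ / 2 : ℚ) * lg (lc P Y) : K)‖ * pp ^ n) * e2)
  rw [e1, norm_mul, norm_mul, norm_two, one_mul, mul_comm, Nat.cast_pow] at this
  exact mul_left_cancel₀ (left_ne_zero_of_mul_eq_one e2) this

end Vale.Agent.P014U.Pl
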