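import Vale.Agent.P014U.St
import Vale.Agent.P014T.Pl.St

/-! # P014U, block PRL (the formula of Perrin-Riou): words and rows -/

set_option autoImplicit false
set_option linter.all false

open NumberField Real
open scoped Classical

noncomputable section

namespace Vale.Agent.P014U.Pl

export Vale.Agent.P014T.Pl (ws eu SGN DER)

open Vale.Agent.P022 (Qb GQ)
open Vale.Agent.P022K.G2 (In)
open Vale.Agent.P022E.GW (Ov Fb)
open X4S.Ga (K)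
open Vale.Agent.P004F (hq)
open X4F.Rc (mq)
open Vale.Agent.P004M.TE (Pt ga al)
open P004N (RN ALw cE)
open P004Z (Van1)
open P004Z.H (Pl hh)
open Top
open P014T.Bx (nu)
open Bt (dd)
open Rb (Lx Cn)
open P014T.Tg (Lw Ms)
open P014T.Z (L1)

variable [Pp]

/-- **tame Gross-Zagier** for the point `X`; `r` is the derivative over the height -/
def TG (A B : ℤ) (ms : ℝ → ℂ) (X : Pt A B) (r : ℂ) : Prop :=
  ∃ (M L : ℕ) (T : Finset ℕ) (Γ : Subgroup GQ), M ≠ 0 ∧ Pm T ∧ IsOpen (Γ : Set GQ) ∧ Γ.Normal ∧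
    ∀ (l : ℕ) P φ (n : ℕ) (W : ZMod l → ZMod (pp ^ n)), L < l → Ov l P → Fb l P φ → φ ∈ Γ →
      Lw l (pp ^ n) W → (∀ p ∈ T, W p = 0) → ∃ z : ℤ, z * r = M * ws ms W ∧
        ((2 * nq A B l * z : ℤ) : ZMod (pp ^ n)) = -(M * W (nu (nq A B l • X)))

/-- **the reciprocity law for the derivative of the class `z`** at the point `X` -/
def RZ {A B : ℤ} (h : El A B) (P : Ideal (𝓞 Qb)) (ms : ℝ → ℂ) (Ω : ℂ) (S : Finset ℕ) (n : ℕ)
    (z : GQ → Pt A B) (X : Pt A B) (μ : K) : Prop :=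
  ∃ L : ℕ, ∀ (l : ℕ) (W : ZMod l → ZMod (pp ^ n)) χ, L < l → l ∉ S → Lx l n W χ →
    Lw l (pp ^ n) W → (∀ p ∈ S, W p = 0) → ∃ (z₁ : GQ → Pt A B) (t : Pt A B) (θ : ℚ) (u : K),
      Cn n z₁ ∧ pp ^ n • t = 0 ∧ (∀ g ∈ In (insert l S : Finset ℕ), z₁ g = 0) ∧
      (∀ g k, z₁ (g * k) = z₁ g + ga g (z₁ k) + (χ g).val • ga g (nq A B l • z k + (ga k t - t))) ∧
      θ * Ω = ws ms W ∧ ‖u‖ = 1 ∧ ∀ X', pp ^ n • X' = X →
        Iv.iv P (Cp.cp (Ki.wp (hq h)) n (dd A B X') z₁) = mq (u * μ * θ / (pp : K) ^ n)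

/-! ## rows -/

/-- tame Gross-Zagier on any curve -/
def TGA : Prop := ∀ (A B : ℤ) N G a, El A B → Nf A B N G a → ALw N N G 1 → Van1 a 1 → L1 a ≠ 0 →
  ∃ (v : ℕ → AbsoluteValue Qb ℝ) (X : Pt A B), Pl v ∧ (∀ g, ga g X = X) ∧ ¬ IsOfFinAddOrder X ∧
    TG A B (Ms G) X (L1 a / hh v X)

/-- the value at a tame logarithm -/
def LWX : Prop := ∀ (A B : ℤ) N G a, El A B → Nf A B N G a → Van1 a 1 → ∃ S₀, Pm S₀ ∧
  ∀ S, S₀ ⊆ S → Pm S → ∃ e : ℕ, ∀ (l n : ℕ) (W : ZMod l → ZMod (pp ^ n)), l.Prime → l ∉ S →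
    Lw l (pp ^ n) W → (∀ p ∈ S, W p = 0) → ∃ θ : ℚ,
      θ * w0 A B = eu N a S * (2 * π * ws (Ms G) W) ∧
      ∀ (j : Qb →+* ℂ) (x : Qb) (ι : Qb →+* ℂ_[pp]),
        j x * w0 A B = P014T.Rk.Lw (al A B) (cS (insert l S) fun k => (W k).val) →
        ‖ι (l * x - θ)‖ * (pp : ℝ) ^ n ≤ (pp : ℝ) ^ e

end Vale.Agent.P014U.Pl
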