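import Vale.Agent.P014U.Pl.Du
import Vale.Agent.P014T.Pl.Zw

/-! # P014U, block PRL: the corestriction of a twisted class is a weighted corestriction -/

set_option autoImplicit false
set_option linter.all false

open scoped Classical

noncomputable section

namespace Vale.Agent.P014U.Pl.Zw

open Matrix
open Vale.Agent.P022 (Qb GQ)
open Vale.Agent.P004F (M2)
open Vale.Agent.P004M.TE (Pt ga)
open Dr

export Vale.Agent.P014T.Pl.Zw (Ce ex_ce Jx so pa ka fin_jx tr wt wt_un)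

variable [Pp] {l : ℕ}

/-- the second coordinate of a dual number -/
def sn (n : ℕ) : Dn n →+ Zn n := (TrivSqZeroExt.sndHom (Zn n) (Zn n)).toAddMonoidHom

theorem sn_il {n : ℕ} (a : Zn n) (x : Dn n) : sn n (il n a * x) = a * sn n x := by
  rw [il, ← Algebra.smul_def]
  rfl

theorem sn_psi {q n : ℕ} {lam : ZMod q → ZMod (pp ^ n)} {χ : GQ → ZMod (pp ^ n)}
    (X : Rb.Lx q n lam χ) (g : GQ) : sn n (psi X g) = χ g := by simp [sn, psi_apply]

theorem der_eq {q n : ℕ} {lam : ZMod q → ZMod (pp ^ n)} {χ : GQ → ZMod (pp ^ n)}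
    (X : Rb.Lx q n lam χ) (z : Fm n) (M : ℕ) (g : GQ) :
    der z M X g = sn n ∘ z (M * q) (Dn n) (il n) (psi X) g := rfl

variable {c : GQ →* (ZMod l)ˣ}

namespace Ce

export Vale.Agent.P014T.Pl.Zw.Ce (cyc cast mul inv act' wt_apply)

variable (C : Ce l c)
include C

/-- the tame character through the exponent -/
theorem lx {q n : ℕ} {lam : ZMod q → ZMod (pp ^ n)} {χ : GQ → ZMod (pp ^ n)} (X : Rb.Lx q n lam χ)
    (d : q ∣ l) (g : GQ) : χ g = lam ((c g : ZMod l).val : ℕ) := X.eq g _ (C.act' d g)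

/-- the logarithm of a product -/
theorem lx_mul {q n : ℕ} {lam : ZMod q → ZMod (pp ^ n)} {χ : GQ → ZMod (pp ^ n)}
    (X : Rb.Lx q n lam χ) (d : q ∣ l) (g : GQ) (u : (ZMod l)ˣ) :
    lam (((c g * u : (ZMod l)ˣ) : ZMod l).val : ℕ) = χ g + lam ((u : ZMod l).val : ℕ) := by
  have : NeZero l := ⟨C.ne⟩
  have := Fact.mk X.pr
  have k : ∀ x : ZMod l, ((x.val : ℕ) : ZMod q) = ZMod.castHom d (ZMod q) x := fun x => by
    rw [ZMod.castHom_apply, ZMod.natCast_val]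
  have n0 : ∀ v : (ZMod l)ˣ, ZMod.castHom d (ZMod q) v ≠ 0 := fun v => (v.isUnit.map _).ne_zero
  rw [lx C X d, k, k, k, Units.val_mul, map_mul, X.mul _ _ (n0 _) (n0 _)]

variable {N : ℕ} {ρ : GQ →* M2 (Zn N)} {R : Type} [CommRing R] {ι : Zn N →+* R} {Ψ : GQ →* R}
  {π : R →+ Zn N} (hπ : ∀ a x, π (ι a * x) = a * π x) {A B : ℤ} {e : (Fin 2 → Zn N) →+ Pt A B}
  (he : ∀ g v, e (ρ g *ᵥ v) = ga g (e v)) {ω : ZMod l → ℤ} (hω : ∀ g, π (Ψ g) = ω (c g))
  {y : GQ → Fin 2 → Zn N} {z : GQ → Pt A B} (hz : ∀ g ∈ Hm l, z g = e (y g))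
include hπ he hω hz

theorem cor_eq [Fintype (Jx l)] {g : GQ} (h : ∀ x : (ZMod l)ˣ, ω (c g * x) = ω x) :
    e (π ∘ cor ρ ι Ψ (Hm l) y g) =
      ∑ i, ω (ka c i) • ga (so l (pa l g i)) (z (P014T.Kc.ta (so l) (pa l) g i)) := by
  have k : ∀ s v, π ∘ (aa ρ ι Ψ s *ᵥ (ι ∘ v)) = ω (c s) • ρ s *ᵥ v := fun s v => by
    funext i
    rw [aa, smul_mulVec, Function.comp_apply, Pi.smul_apply, ← RingHom.map_mulVec, smul_eq_mul,
      mul_comm, hπ, hω, Pi.smul_apply, zsmul_eq_mul, mul_comm]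
  rw [cor, finsum_eq_sum_of_fintype, ← ((tr l).bij (x := g) trivial).sum_comp,
    show ∀ f : Jx l → Fin 2 → R, π ∘ ∑ i, f i = ∑ i, π ∘ f i from fun f => funext fun j => by simp,
    map_sum]
  refine Finset.sum_congr rfl fun i _ => ?_
  rw [k, map_zsmul, he, ← C.inv h i, C.cast, hz _ ((tr l).ta_mem trivial i), pa, inv_smul_smul]
  rfl

/-- **the class of the Euler system on a group which kills the character** -/
theorem ch_eq [Fintype (Jx l)] {x : GQ → Fin 2 → R} {r : R} {δ : ℤ} (hr : r = δ)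
    (hx : Ch ⊤ (aa ρ ι Ψ) x (r • cor ρ ι Ψ (Hm l) y)) : ∃ t : Pt A B, pp ^ N • t = 0 ∧
    ∀ g, Ψ g = 1 → (∀ u : (ZMod l)ˣ, ω (c g * u) = ω u) → e (π ∘ x g) =
      δ • ∑ i, ω (ka c i) • ga (so l (pa l g i)) (z (P014T.Kc.ta (so l) (pa l) g i)) + (ga g t - t) := by
  obtain ⟨w, hw⟩ := hx
  refine ⟨e (π ∘ w), e_tor e _, fun g h1 h => ?_⟩
  rw [← cor_eq C hπ he hω hz h, ← he, ← map_zsmul, ← map_sub, ← map_add, eq_add_of_sub_eq' (hw g trivial)]
  congr 1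
  funext i
  simp only [aa, h1, mulVec, dotProduct, hπ, hr, one_smul, Function.comp_apply, Pi.add_apply,
    Pi.sub_apply, Pi.smul_apply, map_add, map_sub, map_sum, map_apply, smul_eq_mul, ← zsmul_eq_mul,
    map_zsmul]

end Ce

section

variable {N : ℕ} {ρ : GQ →* M2 (Zn N)} {S : Finset ℕ} {a a' : ℕ → ℤ} {Ad : ℕ → Prop} {z : Fm N}
  {ε : GQ →* Zn N} {d : ℕ}

/-- the twisted family -/
def tz (ε : GQ →* Zn N) (z : Fm N) : Fm N := fun M A _ ι Ψ => z M A ι (ι.toMonoidHom.comp ε * Ψ)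

theorem aa_tw {R : Type} [CommRing R] (ι : Zn N →+* R) (Ψ : GQ →* R) :
    aa (am ρ (RingHom.id _) ε) ι Ψ = aa ρ ι (ι.toMonoidHom.comp ε * Ψ) := by
  ext g i j
  simp [aa, am, mul_comm, mul_left_comm]

variable (cd : Cd d ε) (sq : ∀ g, ε g ^ 2 = 1)
  (ha : ∀ l P φ, P022E.GW.Ov l P → l ∉ S → P022E.GW.Fb l P φ → (a' l : Zn N) = ε φ * a l)
include cd sq ha

/-- twisting by a quadratic character -/
theorem gr_tw (G : Gr ρ S a Ad) (hd : ∀ p, p.Prime → p ∣ d → p ∈ S) :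
    Gr (am ρ (RingHom.id _) ε) S a' fun M => Ad M ∧ d ∣ M := by
  have e : ∀ g, am ρ (RingHom.id _) ε g = ε g • ρ g := fun g => by ext; simp [am, aa]
  refine ⟨G.two, fun l P o s i m => ?_, fun l P φ o s f => ?_, fun M m => G.pos M m.1,
    fun M m => ⟨G.ad2 M m.1, m.2.mul_right _⟩, fun M l m p s n => ⟨G.adl M l m.1 p s n, m.2.mul_right _⟩⟩
  · rw [e, G.unr l P o s i m, cd i (inert_Hm o (fun k => s (hd l o.1 k)) m), one_smul]
  · rw [e, Matrix.det_smul, trace_smul, (G.frb l P φ o s f).1, (G.frb l P φ o s f).2, ha l P φ o s f,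
      Fintype.card_fin, sq, one_mul, smul_eq_mul]
    exact ⟨rfl, rfl⟩

theorem eu_tw (E : Eu ρ S a Ad z) :
    Eu (am ρ (RingHom.id _) ε) S a' (fun M => Ad M ∧ d ∣ M) (tz ε z) := by
  have k : ∀ {M} {R : Type} [CommRing R] (ι : Zn N →+* R) {Ψ : GQ →* R}, d ∣ M → Cd M Ψ →
      Cd M (ι.toMonoidHom.comp ε * Ψ) := fun ι _ m h => ((cd.mono m).map ι).mul h
  refine ⟨fun M R _ ι Ψ m h => aa_tw ι Ψ ▸ E.co M R ι _ m.1 (k ι m.2 h),
    fun M R R' _ _ f ι Ψ g i m => (E.map M R R' f ι _ g i m.1).trans ?_,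
    fun M R _ ι Ψ m h => E.two M R ι _ m.1 (k ι m.2 h),
    fun M R _ ι Ψ l P φ m h o s n f => (E.odd M R ι _ l P φ m.1 (k ι m.2 h) o s n f).trans ?_⟩
  · rw [tz, show f.toMonoidHom.comp (ι.toMonoidHom.comp ε * Ψ) =
      (f.comp ι).toMonoidHom.comp ε * f.toMonoidHom.comp Ψ from MonoidHom.ext fun g => by simp]
  · have e1 := congrArg ι (ha l P φ o s f)
    have e2 := congrArg ι (sq φ)
    simp only [map_intCast, map_mul, map_pow, map_one] at e1 e2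
    rw [tz, e1]
    congr 1
    simp only [MonoidHom.mul_apply, MonoidHom.comp_apply, RingHom.toMonoidHom_eq_coe,
      MonoidHom.coe_coe]
    linear_combination Ψ φ ^ 2 * e2

end

end Vale.Agent.P014U.Pl.Zw
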